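import Vale.Agent.N202.Defs
import Vale.Agent.N202.Final

/-!
A sharper form of Lech's inequality, with a length of the closed fibre as a factor.
-/

open IsLocalRing Vale.Agent.N202

universe u

/-- For every flat local homomorphism `R → S` of Noetherian local rings with `dim R = dim S = d`:
(1) for every proper ideal `J` of finite colength, `ℓ(S/(𝔪S + J)) e(R) ≤ e(J; S)`, and
`ℓ(S/(𝔪S + KJ)) e(R) ≤ e(J; S) + d ℓ(S/(𝔪S + K)) e(R)` for every ideal `K`;
(2) for all `y_1, …, y_d` in `S` and all `j`,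
`C(j + d, d) ℓ(S/(𝔪S + (y))) e(R) ≤ ℓ(S/(y)^(j+1))`. -/
theorem Vale.Agent.Results.P202.A0Sharper.result :
    ∀ (R S : Type u) [CommRing R] [IsLocalRing R] [IsNoetherianRing R]
      [CommRing S] [IsLocalRing S] [IsNoetherianRing S]
      [Algebra R S] [IsLocalHom (algebraMap R S)] [Module.Flat R S] (d : ℕ),
      ringKrullDim R = d → ringKrullDim S = d →
      ∃ eR : ℕ, HasMult (maximalIdeal R) d eR ∧
        (∀ J : Ideal S, J ≠ ⊤ → colength J ≠ ⊤ →
          ∃ eJ : ℕ, HasMult J d eJ ∧ colength (extMax R S ⊔ J) * eR ≤ eJ ∧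
            ∀ K : Ideal S, colength (extMax R S ⊔ K * J) * eR ≤
              eJ + d * (colength (extMax R S ⊔ K) * eR)) ∧
        (∀ (y : Fin d → S) (j : ℕ),
          ((j + d).choose d : ℕ∞) * (colength (extMax R S ⊔ Ideal.span (Set.range y)) * eR) ≤
            colength (Ideal.span (Set.range y) ^ (j + 1))) :=
  fun _ _ _ _ _ _ _ _ _ _ _ _ hR hS =>
    (Vale.Agent.P202.exists_mult_all hR).imp fun _ he =>
      ⟨he, ideal_all hR hS he, level_all hR hS he⟩
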